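import Vale.Agent.P015.H807.Param
import Vale.Agent.P015.H807.Speed
import Vale.Agent.P015.H807.Count

namespace Vale.Agent.Results.P015.ConvexCurves

open Vale.Agent.P015 Vale.Agent.P015.H807 Filter Polynomial

/-- Walks through Gaussian primes near boundaries of planar convex sets.
(1) In a disc of radius `L`, at most `L e ^ (-3k) / D` of the Gaussian primes within `e ^ k` of the
boundary of a convex set are joined in `G_D` to a prime at distance at least `k D`, as soon as
`L ≥ exp (C D ^ C k log k)`.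
(2) A walk of `G_D` within `e ^ k` of the union of the boundaries of at most `e ^ k` convex sets has
endpoints at distance at most `exp (C D ^ C k log k)`.
(3) If `L ≥ exp (C D ^ C k log k)`, then within `L` of every boundary point `q₀` of a convex set that
reaches out of the disc of radius `L` about `q₀` there is a boundary point `q` such that every
connected component of `G_D` that meets the disc of radius `e ^ k` about `q` is tiny.
(4) All components of `G_D` restricted to a set `S` are finite if near each far out `z` in `S`, that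
is in the disc of radius `|z| ^ a` about `z`, the set `S` is within distance `width c |z|` of at
most `width c |z|` boundaries of convex sets.
(5) This holds for the Gaussian primes near a finite union of boundaries of convex sets.
(6) It holds for the Gaussian primes near a continuous curve both ends of which lie on boundaries
of convex sets, in particular near every polynomial curve `P(t) + i Q(t)`.
(7) A walk of `G_D` in an annulus of large radius `R` and width `width c R` has endpoints at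
distance at most `R ^ ε`.
(8) A self-avoiding walk of `n` steps of `G_D` outside a convex set whose distance to the set never
drops by more than `e ^ k` ends at distance at least `n exp (-(C D ^ C k log k)) - 1 - e ^ k` plus
the distance at its start. -/
theorem result :
    (∃ C : ℝ, 0 < C ∧ ∀ D : ℝ, 1 ≤ D → ∀ k : ℕ, 2 ≤ k → ∀ L : ℝ,
      Real.exp (C * D ^ C * (k * Real.log k)) ≤ L → ∀ K : Set ℂ, Convex ℝ K → ∀ x₀ : ℂ,
      ∀ X : Finset {z : GaussianInt // Prime z},
      (∀ z ∈ X, dist (GaussianInt.toComplex z.1) x₀ ≤ L ∧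
        (∃ q ∈ frontier K, dist (GaussianInt.toComplex z.1) q ≤ Real.exp k) ∧
        ∃ w, (moatGraph D).Reachable z w ∧
          k * D ≤ dist (GaussianInt.toComplex z.1) (GaussianInt.toComplex w.1)) →
      (X.card : ℝ) ≤ L * Real.exp (-(3 * k)) / D) ∧
    (∃ C : ℝ, 0 < C ∧ ∀ D : ℝ, 1 ≤ D → ∀ k : ℕ, 2 ≤ k →
      ∀ (M : ℕ) (K : Fin M → Set ℂ), (M : ℝ) ≤ Real.exp k → (∀ j, Convex ℝ (K j)) →
      ∀ (z w : {z : GaussianInt // Prime z}) (p : (moatGraph D).Walk z w),
        (∀ v ∈ p.support, NearBoundaries K (Real.exp k) (GaussianInt.toComplex v.1)) →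
        dist (GaussianInt.toComplex z.1) (GaussianInt.toComplex w.1) ≤
          Real.exp (C * D ^ C * (k * Real.log k))) ∧
    (∃ C : ℝ, 0 < C ∧ ∀ D : ℝ, 1 ≤ D → ∀ k : ℕ, 2 ≤ k → ∀ L : ℝ,
      Real.exp (C * D ^ C * (k * Real.log k)) ≤ L → ∀ K : Set ℂ, Convex ℝ K →
      ∀ q₀ ∈ frontier K, (∃ x ∈ K, L ≤ dist x q₀) →
      ∃ q ∈ frontier K, dist q q₀ ≤ L ∧
        ∀ z w : {z : GaussianInt // Prime z}, (moatGraph D).Reachable z w →
          dist (GaussianInt.toComplex z.1) q ≤ Real.exp k →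
          dist (GaussianInt.toComplex z.1) (GaussianInt.toComplex w.1) < k * D) ∧
    (∀ D a : ℝ, 0 < a → ∃ c : ℝ, 0 < c ∧
      ∀ (S : Set {z : GaussianInt // Prime z}) (R₀ : ℝ),
      (∀ z ∈ S, R₀ ≤ ‖GaussianInt.toComplex z.1‖ → ∃ (M : ℕ) (K : Fin M → Set ℂ),
        (M : ℝ) ≤ width c ‖GaussianInt.toComplex z.1‖ ∧ (∀ j, Convex ℝ (K j)) ∧
        ∀ v ∈ S, dist (GaussianInt.toComplex z.1) (GaussianInt.toComplex v.1) ≤
            ‖GaussianInt.toComplex z.1‖ ^ a →
          NearBoundaries K (width c ‖GaussianInt.toComplex z.1‖) (GaussianInt.toComplex v.1)) →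
      ∀ N : ((moatGraph D).induce S).ConnectedComponent, N.supp.Finite) ∧
    (∀ D : ℝ, ∃ c : ℝ, 0 < c ∧ ∀ (M : ℕ) (K : Fin M → Set ℂ), (∀ j, Convex ℝ (K j)) →
      ∀ N : ((moatGraph D).induce (nearUnion K c)).ConnectedComponent, N.supp.Finite) ∧
    (∀ D : ℝ, ∃ c : ℝ, 0 < c ∧
      (∀ (Γ : ℝ → ℂ) (T : ℝ) (K₀ K₁ : Set ℂ), Continuous Γ → Convex ℝ K₀ → Convex ℝ K₁ →
        (∀ t, T ≤ t → Γ t ∈ frontier K₀) → (∀ t, t ≤ -T → Γ t ∈ frontier K₁) →
        ∀ N : ((moatGraph D).induce (nearCurve Γ c)).ConnectedComponent, N.supp.Finite) ∧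
      ∀ (P Q : ℝ[X])
        (N : ((moatGraph D).induce
          (nearCurve (fun t => ⟨P.eval t, Q.eval t⟩) c)).ConnectedComponent), N.supp.Finite) ∧
    (∀ D ε : ℝ, 0 < ε → ∃ c : ℝ, 0 < c ∧ ∀ᶠ R : ℝ in atTop,
      ∀ (z₀ : ℂ) (z w : {z : GaussianInt // Prime z}) (p : (moatGraph D).Walk z w),
      (∀ v ∈ p.support, R ≤ dist (GaussianInt.toComplex v.1) z₀ ∧
        dist (GaussianInt.toComplex v.1) z₀ ≤ R + width c R) →
      dist (GaussianInt.toComplex z.1) (GaussianInt.toComplex w.1) ≤ R ^ ε) ∧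
    (∃ C : ℝ, 0 < C ∧ ∀ D : ℝ, 1 ≤ D → ∀ k : ℕ, 2 ≤ k →
      ∀ K : Set ℂ, Convex ℝ K → K.Nonempty →
      ∀ (n : ℕ) (γ : ℕ → {z : GaussianInt // Prime z}), Set.InjOn γ (Set.Iic n) →
      (∀ i < n, (moatGraph D).Adj (γ i) (γ (i + 1))) →
      (∀ i ≤ n, GaussianInt.toComplex (γ i).1 ∉ K) →
      (∀ i j, i ≤ j → j ≤ n → Metric.infDist (GaussianInt.toComplex (γ i).1) K - Real.exp k ≤
        Metric.infDist (GaussianInt.toComplex (γ j).1) K) →
      Metric.infDist (GaussianInt.toComplex (γ 0).1) K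
          + n * Real.exp (-(C * D ^ C * (k * Real.log k))) - 1 - Real.exp k ≤
        Metric.infDist (GaussianInt.toComplex (γ n).1) K) := by
  refine ⟨near_moat, union_confinement, blocking_discs, thin_components, union_components, ?_,
    fun D ε hε => annulus_confinement D ε hε, walk_speed⟩
  intro D
  obtain ⟨c₁, hc₁, h₁⟩ := curve_components D
  refine ⟨c₁, hc₁, h₁, ?_⟩
  intro P Q
  obtain ⟨Γ, T, K₀, K₁, hΓ, hK₀, hK₁, h0, h1, rfl⟩ := poly_curve_convex_ends P Q
  exact h₁ _ T K₀ K₁ hΓ hK₀ hK₁ h0 h1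

end Vale.Agent.Results.P015.ConvexCurves
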