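import Vale.Agent.P015.H10.Morphic

namespace Vale.Agent.Results.P015.SuperquadraticComplexity

open Vale.Agent.P015

/-- Infinite paths of `G_D` have step sequences of superquadratic factor complexity.
(1) The factor complexity of an infinite path is not `O(k ^ 2.15)`, not even after discarding an
initial part.
(2) The step sequence of an infinite path is not morphic: it is not the image under a coding of a
fixed point of a non-erasing morphism.
(3) The finite uniform version of (1) for all sequences of distinct Gaussian integers with bounded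
steps that miss a residue class modulo every Gaussian prime of small norm. -/
theorem result :
    (∀ (D : ℝ) (γ : ℕ → {z : GaussianInt // Prime z}), IsInfinitePath D γ →
      ∀ (K : ℝ) (n₀ : ℕ), ∃ k : ℕ, 1 ≤ k ∧
        K * (k : ℝ) ^ (43 / 20 : ℝ) < (complexity (fun n => (γ n).1) n₀ k : ℝ)) ∧
    (∀ (D : ℝ) (γ : ℕ → {z : GaussianInt // Prime z}), IsInfinitePath D γ →
      ¬ IsMorphic (fun n => (γ (n + 1)).1 - (γ n).1)) ∧
    (∀ D K : ℝ, ∃ N : ℕ, 1 ≤ N ∧ ∀ g : ℕ → GaussianInt,
        (∀ m ≤ N, ∀ n ≤ N, g m = g n → m = n) →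
        (∀ n < N, dist (GaussianInt.toComplex (g n)) (GaussianInt.toComplex (g (n + 1))) ≤ D) →
        (∀ π : GaussianInt, Prime π → π.norm ≤ N →
          ∃ c : GaussianInt, ∀ n ≤ N, ¬ π ∣ g n - c) →
        ∃ k : ℕ, 1 ≤ k ∧ k ≤ N ∧
          K * (k : ℝ) ^ (43 / 20 : ℝ) < ((stepWord g k '' {n | n + k ≤ N}).ncard : ℝ)) :=
  ⟨fun _ _ hγ K n₀ => H10.path_complexity2 hγ n₀ K, fun _ _ hγ => H10.not_morphic hγ,
    H10.finite_lipschitz⟩

end Vale.Agent.Results.P015.SuperquadraticComplexity
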